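import Vale.Agent.P022.H542.L3.Geo
import Vale.Agent.P022.H964.L3.RootLS
import Vale.Agent.P022.H783.KeyD

/-! # P022-L3, [CUSP]: a place with values in `ℂ((t))` extends to a Galois extension with a finite
`2`-group after the substitution `t ↦ t^(2^j)` -/

noncomputable section

open HahnSeries
open scoped IntermediateField

namespace Vale.Agent.P022.H222.L3

open Vale.Agent.P022.H542.L3

theorem sb_sb (m n : ℕ) (hm : 0 < m) (hn : 0 < n) (x : LS) :
    sb m hm (sb n hn x) = sb (m * n) (Nat.mul_pos hm hn) x := by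
  ext k
  by_cases h : ((m * n : ℕ) : ℤ) ∣ k
  · obtain ⟨l, rfl⟩ := h
    rw [coeff_sb_mul]
    have : ((m * n : ℕ) : ℤ) * l = (m : ℤ) * ((n : ℤ) * l) := by push_cast; ring
    rw [this, coeff_sb_mul, coeff_sb_mul]
  · rw [coeff_sb_of_not_dvd _ _ _ _ h]
    by_cases h1 : (m : ℤ) ∣ k
    · obtain ⟨l, rfl⟩ := h1
      rw [coeff_sb_mul]
      refine coeff_sb_of_not_dvd _ _ _ _ ?_
      rintro ⟨q, rfl⟩
      exact h ⟨q, by push_cast; ring⟩
    · exact coeff_sb_of_not_dvd _ _ _ _ h1

theorem sb_one (x : LS) : sb 1 one_pos x = x := by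
  ext k
  have := coeff_sb_mul 1 one_pos x k
  simpa using this

theorem sb_congr {m n : ℕ} (h : m = n) (hm : 0 < m) (hn : 0 < n) (x : LS) :
    sb m hm x = sb n hn x := by
  subst h
  rfl

theorem algebraMap_LS (a : ℂ) : algebraMap ℂ LS a = C a := by
  show ofPowerSeries ℤ ℂ (algebraMap ℂ (PowerSeries ℂ) a) = C a
  rw [show (algebraMap ℂ (PowerSeries ℂ) a) = PowerSeries.C a from rfl, HahnSeries.ofPowerSeries_C]

/-- `t ↦ t^m` as a map of `ℂ`-algebras -/
def sbA (m : ℕ) (hm : 0 < m) : LS →ₐ[ℂ] LS where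
  __ := sb m hm
  commutes' a := by
    show sb m hm (algebraMap ℂ LS a) = algebraMap ℂ LS a
    rw [algebraMap_LS, sb_C]

@[simp] theorem sbA_apply (m : ℕ) (hm : 0 < m) (x : LS) : sbA m hm x = sb m hm x := rfl

theorem dvd_order_sb (m : ℕ) (hm : 0 < m) (x : LS) : (m : ℤ) ∣ (sb m hm x).order := by
  by_contra h
  have h1 := coeff_sb_of_not_dvd m hm x _ h
  have h2 : sb m hm x = 0 := HahnSeries.coeff_order_eq_zero.1 h1
  rw [h2, HahnSeries.order_zero] at h
  exact h (dvd_zero _)

theorem cusp_aux (n : ℕ) : ∀ (F K : Type) [Field F] [Field K] [Algebra ℂ F] [Algebra ℂ K]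
    [Algebra F K] [IsScalarTower ℂ F K] [FiniteDimensional F K] [IsGalois F K],
    IsPGroup 2 (K ≃ₐ[F] K) → Module.finrank F K ≤ n → ∀ lam : F →ₐ[ℂ] LS,
    ∃ j : ℕ, ∃ θ : K →ₐ[ℂ] LS, ∀ x : F,
      θ (algebraMap F K x) = sb (2 ^ j) (pow_pos (by norm_num) j) (lam x) := by
  induction n with
  | zero =>
    intro F K _ _ _ _ _ _ _ _ _ hn
    exact absurd (Module.finrank_pos (R := F) (M := K)) (by omega)
  | succ n ih =>
    intro F K _ _ _ _ _ _ _ _ h2 hn lam
    by_cases hbot : (⊥ : Subgroup (K ≃ₐ[F] K)) = ⊤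
    · -- trivial group
      have hcard : Nat.card (K ≃ₐ[F] K) = 1 := by
        rw [← Subgroup.card_top, ← hbot, Subgroup.card_bot]
      rw [IsGalois.card_aut_eq_finrank] at hcard
      have hsurj : Function.Surjective (algebraMap F K) := by
        have h1 : (⊥ : Subalgebra F K) = ⊤ := Subalgebra.bot_eq_top_of_finrank_eq_one hcard
        exact Algebra.surjective_algebraMap_iff.2 h1.symm
      let e0 : F ≃ₐ[ℂ] K := AlgEquiv.ofBijective (IsScalarTower.toAlgHom ℂ F K)
        ⟨(algebraMap F K).injective, hsurj⟩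
      refine ⟨0, lam.comp (e0.symm : K →ₐ[ℂ] F), fun x => ?_⟩
      have h3 : e0.symm (algebraMap F K x) = x := by
        have : algebraMap F K x = e0 x := rfl
        rw [this, AlgEquiv.symm_apply_apply]
      show lam (e0.symm (algebraMap F K x)) = _
      rw [h3]
      exact (sb_one _).symm
    · obtain ⟨H, -, hH⟩ := Vale.Agent.P022.H783.exists_index_two h2 hbot
      have h2F : (2 : F) ≠ 0 := by
        intro h
        have h1 : (algebraMap ℂ F) 2 = 0 := by rw [map_ofNat]; exact h
        exact two_ne_zero ((map_eq_zero _).1 h1)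
      obtain ⟨s, hs0, -, -, hsF, ⟨a, ha⟩⟩ := Vale.Agent.P022.H783.exists_sqrt h2F hH
      -- the quadratic extension
      have hlt : Module.finrank F⟮s⟯ K ≤ n := by
        have h1 := Module.finrank_mul_finrank F F⟮s⟯ K
        have h3 : Module.finrank F F⟮s⟯ ≠ 1 := by
          intro h
          rw [IntermediateField.finrank_eq_one_iff, IntermediateField.adjoin_simple_eq_bot_iff,
            IntermediateField.mem_bot] at h
          exact hsF h
        have h4 : 0 < Module.finrank F F⟮s⟯ := Module.finrank_pos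
        have h5 : 0 < Module.finrank F⟮s⟯ K := Module.finrank_pos
        nlinarith [show 2 ≤ Module.finrank F F⟮s⟯ by omega]
      have hinj : Function.Injective
          (fun σ : K ≃ₐ[F⟮s⟯] K => σ.restrictScalars F) := AlgEquiv.restrictScalars_injective F
      have h2' : IsPGroup 2 (K ≃ₐ[F⟮s⟯] K) :=
        h2.of_injective (AlgEquiv.restrictScalarsHom F) hinj
      obtain ⟨lam', hlam'⟩ := Vale.Agent.P022.H964.L3.ext_roots (k := ℂ) (K := F) (L := F⟮s⟯)
        ((sbA 2 two_pos).comp lam) 2 two_pos {IntermediateField.AdjoinSimple.gen F s}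
        (by
          rintro _ rfl
          refine ⟨a, ?_, ?_⟩
          · apply Subtype.ext
            show s ^ 2 = algebraMap F K a
            exact ha.symm
          · exact dvd_order_sb 2 two_pos _)
        (by
          apply IntermediateField.lift_injective F⟮s⟯
          rw [IntermediateField.lift_adjoin_simple, IntermediateField.lift_top]
          rfl)
      have htow : IsScalarTower ℂ F⟮s⟯ K := IsScalarTower.of_algebraMap_eq fun c => rfl
      obtain ⟨j, θ, hθ⟩ := ih F⟮s⟯ K h2' hlt lam'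
      refine ⟨j + 1, θ, fun x => ?_⟩
      have h6 := hθ (algebraMap F F⟮s⟯ x)
      rw [hlam', ← IsScalarTower.algebraMap_apply] at h6
      rw [h6]
      show sb _ _ (sb 2 two_pos (lam x)) = _
      rw [sb_sb]
      exact sb_congr (pow_succ 2 j).symm _ _ _

/-- **[CUSP]** -/
theorem cusp {F K : Type} [Field F] [Field K] [Algebra ℂ F] [Algebra ℂ K]
    [Algebra F K] [IsScalarTower ℂ F K] [FiniteDimensional F K] [IsGalois F K]
    (h2 : IsPGroup 2 (K ≃ₐ[F] K)) (lam : F →ₐ[ℂ] LS) :
    ∃ j : ℕ, ∃ θ : K →ₐ[ℂ] LS, ∀ x : F,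
      θ (algebraMap F K x) = sb (2 ^ j) (pow_pos (by norm_num) j) (lam x) :=
  cusp_aux _ F K h2 le_rfl lam

end Vale.Agent.P022.H222.L3
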